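import Vale.Agent.P011N.Iface

/-!
Block D1: the class of subgroups which replaces the subgroups of finite index.
-/

namespace Vale.Agent.P011N.D1

open Vale.Agent.P011.MPQ

/-- A big subgroup, together with the finiteness theorem for quaternion algebras. -/
def Bg {G : Type} [Group G] (N : Subgroup G) : Prop := MFQ ∧ Big N

theorem Bg.normal {G : Type} [Group G] {N : Subgroup G} (h : Bg N) : N.Normal := h.2.1

theorem Bg.comap {G H : Type} [Group G] [Group H] {N : Subgroup G} (h : Bg N) (s : H →* G) :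
    Bg (N.comap s) :=
  ⟨h.1, h.2.comap s⟩

theorem Bg.index {L : Type} [Field L] [NumberField L] {a b : Lˣ} (hab : Aniso a b)
    {N : Subgroup (SL1 a b)} (h : Bg N) : N.index ≠ 0 :=
  bigFin_of (h.1 L a b hab).1 (h.1 L a b hab).2 N h.2

/-- A common exponent for the preimage in a norm-one group. -/
theorem Bg.exp {L : Type} [Field L] [NumberField L] {a b : Lˣ} (hab : Aniso a b)
    {G : Type} [Group G] {N : Subgroup G} (h : Bg N) (s : SL1 a b →* G) :
    ∃ e : ℕ, 0 < e ∧ ∀ g : SL1 a b, s g ^ e ∈ N := by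
  have h1 := (h.comap s).index hab
  have h2 := (h.comap s).normal
  refine ⟨(N.comap s).index, Nat.pos_of_ne_zero h1, fun g => ?_⟩
  rw [← map_pow]
  exact (N.comap s).pow_index_mem g

end Vale.Agent.P011N.D1

namespace Vale.Agent.P011.D4X

open Vale.Agent.P011N.D1

/-- The intersection of all big subgroups. -/
def fresB (G : Type) [Group G] : Subgroup G := ⨅ N : {N : Subgroup G // Bg N}, N.1

theorem mem_fresB {G : Type} [Group G] {x : G} :
    x ∈ fresB G ↔ ∀ N : Subgroup G, Bg N → x ∈ N := by
  rw [fresB, Subgroup.mem_iInf]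
  exact ⟨fun h N hN => h ⟨N, hN⟩, fun h N => h N.1 N.2⟩

theorem fres_mapB {G G' : Type} [Group G] [Group G'] (e : G ≃* G') {x : G} (hx : x ∈ fresB G) :
    e x ∈ fresB G' := by
  rw [mem_fresB] at hx ⊢
  intro N hN
  exact hx (N.comap (e : G →* G')) (hN.comap _)

end Vale.Agent.P011.D4X
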