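import Vale.Agent.P011N.Iface
import Vale.Agent.P011.H984.Full.BrgI
import Vale.Agent.P011.D4H.Hy
import Vale.Agent.P011.D4H.YHy

/-!
Block D1: the clauses for trialitarian groups, from the groups of linear maps, for an arbitrary
property which is invariant under isomorphisms.
-/

open Module IntermediateField

namespace Vale.Agent.P011N.D1

open Vale.Agent.P011 Vale.Agent.P011.MPQ Vale.Agent.P011.D4 Vale.Agent.P011.D4T
  Vale.Agent.P011.D4I Vale.Agent.P011.D4H Vale.Agent.P011.H900 Vale.Agent.P011.H984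

/-- The property is invariant under isomorphisms. -/
def IsoInv (Φ : ∀ (G : Type) [Group G], Prop) : Prop :=
  ∀ (G H : Type) [Group G] [Group H], (G ≃* H) → Φ H → Φ G

theorem isoInv_bigTop : IsoInv BigTop := by
  intro G H _ _ e h N hN
  have h1 := h (N.comap (e.symm : H →* G)) (hN.comap _)
  rw [eq_top_iff]
  intro x _
  have h2 : e x ∈ N.comap (e.symm : H →* G) := by
    rw [h1]
    trivial
  simpa using h2

theorem isoInv_hasGood : IsoInv HasGood := by
  rintro G H _ _ e ⟨V, i1, i2, i3, T, hT, ⟨f⟩⟩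
  exact ⟨V, i1, i2, i3, T, hT, ⟨e.trans f⟩⟩

/-- Cyclic cubic extensions, for the groups of permutations. -/
def PerT (Φ : ∀ (G : Type) [Group G], Prop) : Prop :=
  ∀ (k E : Type) [Field k] [NumberField k] [Field E] [Algebra k E] (ρ σ : E ≃ₐ[k] E) (α q : E)
    (a b c : kˣ), IsDataR ρ σ α q a b c → Φ (TT ρ σ α q a b c)

/-- Noncyclic cubic extensions, for the groups of permutations. -/
def PerI (Φ : ∀ (G : Type) [Group G], Prop) : Prop :=
  ∀ (k L E : Type) [Field k] [NumberField k] [Field L] [NumberField L] [Field E] [Algebra k L]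
    [Algebra k E] [Algebra L E] [IsScalarTower k L E] (ρ σ ι : E ≃ₐ[k] E) (α : E)
    (a b c : kˣ) (q : Lˣ), IsDataIR ρ σ ι α a b c q →
    Φ (TI ρ σ ι α (algebraMap L E (q : L)) a b c)

/-- Cyclic cubic extensions, for the groups of linear maps. -/
def LinT (Φ : ∀ (G : Type) [Group G], Prop) : Prop :=
  ∀ (k L E : Type) [Field k] [NumberField k] [Field L] [NumberField L] [Field E] [NumberField E]
    [Algebra k L] [Algebra k E] [Algebra L E] [IsScalarTower k L E] (ρ σ : E ≃ₐ[k] E)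
    (ρL : L ≃ₐ[k] L) (α : E) (a b c : kˣ) (q : Lˣ), D4X.Hy ρ σ ρL α a b c q →
    (∀ w : L →+* ℝ, w (algebraMap k L a) < 0 →
      w (algebraMap k L b) < 0 ∧ w (algebraMap k L c) < 0) →
    Φ (D4X.GT ρ σ α a b c q)

/-- Noncyclic cubic extensions, for the groups of linear maps. -/
def LinI (Φ : ∀ (G : Type) [Group G], Prop) : Prop :=
  ∀ (k L E : Type) [Field k] [NumberField k] [Field L] [NumberField L] [Field E] [NumberField E]
    [Algebra k L] [Algebra k E] [Algebra L E] [IsScalarTower k L E] (ρ σ ι : E ≃ₐ[k] E) (α : E)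
    (a b c : kˣ) (q : Lˣ), D4Y.HyI ρ σ ι α a b c q →
    (∀ τ : k →+* ℝ, τ a < 0 → τ b < 0 ∧ τ c < 0) → Φ (D4Y.GTI ρ σ ι α a b c q)

variable {Φ : ∀ (G : Type) [Group G], Prop}

theorem perT_of (hΦ : IsoInv Φ) (h : LinT Φ) : PerT Φ := by
  intro k E _ _ _ _ ρ σ α q a b c H
  have hfin := H.finite
  have hE : NumberField E := NumberField.of_module_finite k E
  have hL : NumberField (LL σ) := NumberField.of_module_finite k (LL σ)
  have h1 := h k (LL σ) E ρ σ _ α a b c H.qL H.hyX H.defL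
  exact hΦ _ _ (MulEquiv.ofBijective (toTT (ρ := ρ) (σ := σ) (α := α) (a := a) (b := b)
    (c := c) (q := H.qL)) ⟨toTT_injective, toTT_surjective⟩).symm h1

theorem perI_of (hΦ : IsoInv Φ) (h : LinI Φ) : PerI Φ := by
  intro k L E _ _ _ _ _ _ _ _ _ ρ σ ι α a b c q H
  have hfin := H.finite
  have hE : NumberField E := NumberField.of_module_finite L E
  have h1 := h k L E ρ σ ι α a b c q H.hyY H.hdef
  exact hΦ _ _ (MulEquiv.ofBijective (toTI (ρ := ρ) (σ := σ) (ι := ι) (α := α) (a := a) (b := b)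
    (c := c) (q := q)) ⟨toTI_injective, toTI_surjective⟩).symm h1

/-- **Cyclic cubic extensions.** -/
theorem clD3_of_per (hΦ : IsoInv Φ) (H : PerT Φ) : ClD3 Φ := by
  intro F _ _ r s a b c d q hD
  obtain ⟨hr, hs, hc, hd, hda, hrd, hsd, hsq, hnq, hdef, w0, hw0, hwa, hwq⟩ := hD
  have hA : IsA r := hr.isA three_ne_zero
  have hB : IsA s := hs.isA two_ne_zero
  obtain ⟨k, _, _, _, hfin, hgal, hfix, haut, hcl⟩ := exists_base [r, s] (by simpa using ⟨hA, hB⟩)
  obtain ⟨ha0, hb0, hc0⟩ := hd.ne (by simpa using ⟨hA, hB⟩)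
  have hr' := hd.1 r (by simp)
  have hs' := hd.1 s (by simp)
  obtain ⟨a, rfl⟩ := unit_of hfix (by simpa using ⟨hr'.1, hs'.1⟩) ha0
  obtain ⟨b, rfl⟩ := unit_of hfix (by simpa using ⟨hr'.2.1, hs'.2.1⟩) hb0
  obtain ⟨c, rfl⟩ := unit_of hfix (by simpa using ⟨hr'.2.2, hs'.2.2⟩) hc0
  obtain ⟨ρ, rfl⟩ := haut r (by simp)
  obtain ⟨σ, rfl⟩ := haut s (by simp)
  have h6 : finrank k F = 6 := rank6 hcl hr.exists_ne hr.three hs.exists_ne hs.two hc
  have hRl : ∀ {w : F →+* ℂ} {τ : k →+* ℝ}, (∀ y, w (algebraMap k F y) = τ y) →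
      Rl [⇑ρ, ⇑σ] w := by
    intro w τ h x hx
    obtain ⟨y, rfl⟩ := hfix x hx
    rw [h, Complex.ofReal_im]
  have hk : ∀ (w : F →+* ℂ), Rl [⇑ρ, ⇑σ] w → ∀ y : k, (w (algebraMap k F y)).im = 0 := by
    intro w hw y
    exact hw _ (by simp)
  have hre : ∀ {w : F →+* ℂ} {τ : k →+* ℝ}, (∀ y, w (algebraMap k F y) = τ y) → ∀ u : kˣ,
      (w ((up F u : Fˣ) : F)).re = τ u := by
    intro w τ h u
    have h1 : w ((up F u : Fˣ) : F) = τ u := h u
    rw [h1, Complex.ofReal_re]
  obtain ⟨τ, hτ⟩ := exists_tau (hk w0 hw0)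
  -- the embeddings over `τ`
  have hq : ∀ w : F →+* ℂ, (∀ t, w (algebraMap k F t) = τ t) → 0 < (w q).re := by
    intro w hw
    obtain ⟨g, hg⟩ := exists_gal (k := k) (w := w) (w0 := w0) fun y => by rw [hw, hτ]
    obtain ⟨i, hi⟩ := act2 hcl hr.three hc g
    rw [hg, hi q hsq]
    apply hwq
    -- the conjugate embedding
    obtain ⟨g', hg'⟩ := exists_gal (k := k) (w := (starRingEnd ℂ).comp w0) (w0 := w0)
      fun y => by rw [RingHom.comp_apply, hτ, Complex.conj_ofReal]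
    obtain ⟨j, hj⟩ := act2 hcl hr.three hc g'
    have hit : ∀ (i : ℕ) (x : F), σ x = x → σ (ρ^[i] x) = ρ^[i] x := by
      intro i
      induction i with
      | zero => exact fun x hx => hx
      | succ i ih =>
        intro x hx
        rw [Function.iterate_succ_apply', ← hc, ih x hx]
    have h3 : (ρ : F → F)^[3] = id := funext hr.three
    obtain ⟨x, hx⟩ : ∃ x, x = ρ^[i] q := ⟨_, rfl⟩
    have hσx : σ x = x := by rw [hx]; exact hit i q hsq
    rw [← hx]
    have h1 : g' (g' x) = x := by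
      apply w0.injective
      rw [← hg', RingHom.comp_apply, ← hg', RingHom.comp_apply, Complex.conj_conj]
    have h2 : ρ^[j] (ρ^[j] x) = x := by
      rw [hj x hσx, hj _ (hit j x hσx)] at h1
      exact h1
    have h4 : ρ^[j] x = x := by
      have h5 : ρ^[j] (ρ^[j] (ρ^[j] x)) = x := by
        rw [← Function.iterate_add_apply, ← Function.iterate_add_apply,
          show j + j + j = 3 * j by ring, Function.iterate_mul, h3, Function.iterate_id]
        rfl
      rwa [h2] at h5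
    have h5 : (starRingEnd ℂ) (w0 x) = w0 x := by
      have h6 := hg' x
      rwa [hj x hσx, h4] at h6
    exact Complex.conj_eq_iff_im.mp h5
  have hdat : IsDataR ρ σ d q a b c :=
    { deg := h6
      ρ1 := hr.exists_ne
      ρ3 := hr.three
      σ2 := hs.two
      comm := fun x => (hc x).symm
      α2 := hda
      ρα := hrd
      σα := hsd
      σq := hsq
      nq := hnq
      div := div_of haut hd
      hdef := by
        intro τ' hτ'
        obtain ⟨w, hw⟩ := exists_ext (F := F) τ'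
        have h1 := hdef w (hRl hw) (by rwa [hre hw])
        rwa [hre hw, hre hw] at h1
      cpt := ⟨τ, by rwa [← hre hτ], hq⟩ }
  exact hΦ _ _ (gEquiv (oL a b c) (TT ρ σ d q a b c) _ (tt_iff ρ σ d q))
    (H k F ρ σ d q a b c hdat)

/-- **Noncyclic cubic extensions.** -/
theorem clD6_of_per (hΦ : IsoInv Φ) (H : PerI Φ) : ClD6 Φ := by
  intro F _ _ r s i a b c d q hD hi hsi hri hid hiq
  obtain ⟨hr, hs, hc, hd, hda, hrd, hsd, hsq, hnq, hdef, w0, hw0, hwa, hwq⟩ := hD
  have hA : IsA r := hr.isA three_ne_zero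
  have hB : IsA s := hs.isA two_ne_zero
  have hC : IsA i := hi.isA two_ne_zero
  obtain ⟨k, _, _, _, hfin, hgal, hfix, haut, hcl⟩ :=
    exists_base [r, s, i] (by simpa using ⟨hA, hB, hC⟩)
  obtain ⟨ha0, hb0, hc0⟩ := hd.ne (by simpa using ⟨hA, hB, hC⟩)
  have hr' := hd.1 r (by simp)
  have hs' := hd.1 s (by simp)
  have hi' := hd.1 i (by simp)
  obtain ⟨a, rfl⟩ := unit_of hfix (by simpa using ⟨hr'.1, hs'.1, hi'.1⟩) ha0
  obtain ⟨b, rfl⟩ := unit_of hfix (by simpa using ⟨hr'.2.1, hs'.2.1, hi'.2.1⟩) hb0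
  obtain ⟨c, rfl⟩ := unit_of hfix (by simpa using ⟨hr'.2.2, hs'.2.2, hi'.2.2⟩) hc0
  obtain ⟨ρ, rfl⟩ := haut r (by simp)
  obtain ⟨σ, rfl⟩ := haut s (by simp)
  obtain ⟨ι, rfl⟩ := haut i (by simp)
  have hir : ∀ x, ι (ρ x) = ρ (ρ (ι x)) := fun x => by rw [← hri x, hr.three]
  have hd0 : d ≠ 0 := by
    rintro rfl
    apply ha0
    rw [← hda, zero_pow two_ne_zero]
  have hsd' : σ d ≠ d := by
    rw [hsd]
    intro h
    exact hd0 (neg_eq_self.mp h)
  obtain ⟨L, hL3, hL4, hL⟩ := exists_L hcl hr.exists_ne hr.three hs.two hi.two hc hsi hir hrd hid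
    hsd'
  have hRl : ∀ {w : F →+* ℂ} {τ : k →+* ℝ}, (∀ y, w (algebraMap k F y) = τ y) →
      Rl [⇑ρ, ⇑σ, ⇑ι] w := by
    intro w τ h x hx
    obtain ⟨y, rfl⟩ := hfix x hx
    rw [h, Complex.ofReal_im]
  have hk : ∀ (w : F →+* ℂ), Rl [⇑ρ, ⇑σ, ⇑ι] w → ∀ y : k, (w (algebraMap k F y)).im = 0 := by
    intro w hw y
    exact hw _ (by simp)
  have hre : ∀ {w : F →+* ℂ} {τ : k →+* ℝ}, (∀ y, w (algebraMap k F y) = τ y) → ∀ u : kˣ,
      (w ((up F u : Fˣ) : F)).re = τ u := by
    intro w τ h u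
    have h1 : w ((up F u : Fˣ) : F) = τ u := h u
    rw [h1, Complex.ofReal_re]
  obtain ⟨τ, hτ⟩ := exists_tau (hk w0 hw0)
  have hq0 : q ≠ 0 := by
    rintro rfl
    rw [zero_mul, zero_mul] at hnq
    exact zero_ne_one hnq
  have hqL : q ∈ L := (hL q).2 ⟨hsq, hiq⟩
  let qL : Lˣ := Units.mk0 ⟨q, hqL⟩ fun h => hq0 (congrArg Subtype.val h)
  have hqv : algebraMap L F (qL : L) = q := rfl
  have hNL : NumberField L := NumberField.of_module_finite k L
  have hq : ∀ w : L →+* ℝ, w.comp (algebraMap k L) = τ → 0 < w (qL : L) := by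
    intro w hw
    obtain ⟨w', hw'⟩ := exists_ext (F := F) w
    have h1 : ∀ y : k, w' (algebraMap k F y) = w0 (algebraMap k F y) := by
      intro y
      rw [hτ, IsScalarTower.algebraMap_apply k L F, hw', ← hw]
      rfl
    obtain ⟨g, hg⟩ := exists_gal (k := k) h1
    obtain ⟨j, hj⟩ := (act3 hcl hr.three hi.two hc hir hsq hiq g).1 0
    have h2 : w0 (ρ^[j] q) = w (qL : L) := by
      rw [← hj, ← hw', hqv, hg]
      rfl
    have h3 := hwq j (by rw [h2, Complex.ofReal_im])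
    rwa [h2, Complex.ofReal_re] at h3
  have hdat : IsDataIR ρ σ ι d a b c qL :=
    { L3 := hL3
      E4 := hL4
      ρ1 := hr.exists_ne
      ρ3 := hr.three
      σ2 := hs.two
      ι2 := hi.two
      comm := fun x => (hc x).symm
      σι := hsi
      ιρ := hir
      σL := fun t => ((hL _).1 t.2).1
      ριL := fun t => ((hL _).1 t.2).2
      α2 := hda
      ρα := hrd
      σα := hsd
      ια := hid
      nq := hnq
      div := div_of haut hd
      hdef := by
        intro τ' hτ'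
        obtain ⟨w, hw⟩ := exists_ext (F := F) τ'
        have h1 := hdef w (hRl hw) (by rwa [hre hw])
        rwa [hre hw, hre hw] at h1
      cpt := ⟨τ, by rwa [← hre hτ], hq⟩ }
  exact hΦ _ _ (gEquiv (oL a b c) (TI ρ σ ι d (algebraMap L F (qL : L)) a b c) _
    (ti_iff ρ σ ι d q)) (H k L F ρ σ ι d a b c qL hdat)

/-- **Cyclic cubic extensions**, from the groups of linear maps. -/
theorem clD3_of (hΦ : IsoInv Φ) (H : LinT Φ) : ClD3 Φ := clD3_of_per hΦ (perT_of hΦ H)

/-- **Noncyclic cubic extensions**, from the groups of linear maps. -/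
theorem clD6_of (hΦ : IsoInv Φ) (H : LinI Φ) : ClD6 Φ := clD6_of_per hΦ (perI_of hΦ H)

end Vale.Agent.P011N.D1
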