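import Vale.Agent.P011.D4T.H369.FixI
import Vale.Agent.P011N.D1.Base

/-!
Block D1: the automorphisms of an octonion division algebra over a number field which
fix the first generator form a group without proper big subgroups.
-/

open NumberField IsDedekindDomain Topology

namespace Vale.Agent.P011.D4.B.FI

open Vale.Agent.P011.MPQ Vale.Agent.P011.D4 Vale.Agent.P011.D4.Oct Vale.Agent.P011.Arith
open Vale.Agent.P011N.D1

section nf

variable {k : Type} [Field k] [NumberField k] {a b c : kˣ}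

/-- A common exponent for the stabilisers of the vectors with a given square. -/
theorem exists_expB (hdiv : Division a b c) (M : Subgroup (fixI a b c)) (hi : Bg M) (b' : kˣ) :
    ∃ e : ℕ, 0 < e ∧ ∀ (c' : kˣ) (u m : Oct a b c), Trip a b' c' gi u m →
      ∀ g : fixI a b c, g.1.1 u = u → g ^ e ∈ M := by
  have h2 : (2 : k) ≠ 0 := two_ne_zero
  by_cases hex : ∃ (c' : kˣ) (u m : Oct a b c), Trip a b' c' gi u m
  swap
  · exact ⟨1, one_pos, fun c' u m T => absurd ⟨c', u, m, T⟩ hex⟩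
  obtain ⟨c₀, u₀, m₀, T₀⟩ := hex
  obtain ⟨Φ, h1, h3, -, h4⟩ := Oct.exists_emb T₀
  have hΦi : Φ gi = gi := by rw [h1, emb_gi]
  have hab := (Oct.aniso_of_trip hdiv T₀).1
  obtain ⟨e, he, hexp⟩ := hi.exp hab ((conjI Φ h3 hΦi).comp (longI a b' c₀))
  have h0 : ∀ g : fixI a b c, g.1.1 u₀ = u₀ → g ^ e ∈ M := by
    intro g hg
    obtain ⟨t, ht, -⟩ := exists_long h2 T₀ Φ h1 h3 h4 (g := g.1) g.2 hg
    have e1 : g = ((conjI Φ h3 hΦi).comp (longI a b' c₀)) t := Subtype.ext ht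
    rw [e1]
    exact hexp t
  refine ⟨e, he, fun c' u m T g hg => ?_⟩
  have hstd := Oct.trip_std (a := a) (b := b) (c := c)
  have hi0 : (gi : Oct a b c) ≠ 0 := by
    intro h
    have := congrArg (fun x : Oct a b c => x.fst.imI) h
    simp [gi] at this
  obtain ⟨ψ, hψ⟩ : ∃ ψ : fixI a b c, ψ.1.1 u₀ = u := by
    obtain ⟨z, hz0, hz⟩ := Oct.exists_perp
      (![1, gi, u - u₀, gi * (u - u₀), 0, 0, 0] : Fin 7 → Oct a b c)
    have hz1 : dot z 1 = 0 := hz 0
    have hz2 : dot z gi = 0 := hz 1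
    have hz3 : dot z (u - u₀) = 0 := hz 2
    have hz4 : dot z (gi * (u - u₀)) = 0 := hz 3
    have hz' := Oct.star_iff_dot.2 hz1
    have hzi : dot gi z = 0 := by rw [dot_comm, hz2]
    obtain ⟨ψ, g1, -, g3⟩ := Oct.exists_move hdiv hstd.si hi0 hz' hz0 hzi T₀.sj T.sj
      (by rw [norm_of_sq T.sj T.jj, norm_of_sq T₀.sj T₀.jj])
      (by rw [dot_sub_right, T.ij, T₀.ij, sub_zero]) hz3
      (by rw [Oct.dot_mul_left, hstd.si, neg_mul, Oct.dot_neg_right, hz4, neg_zero])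
    exact ⟨⟨ψ, g1⟩, g3⟩
  have h5 : (ψ⁻¹ * g * ψ).1.1 u₀ = u₀ := by
    change ψ.1⁻¹.1 (g.1.1 (ψ.1.1 u₀)) = u₀
    rw [hψ, hg, ← hψ]
    change (ψ.1⁻¹ * ψ.1).1 u₀ = u₀
    rw [inv_mul_cancel]
    rfl
  have h6 := hi.normal.conj_mem _ (h0 _ h5) ψ
  have h7 : ψ * (ψ⁻¹ * g * ψ) ^ e * ψ⁻¹ = g ^ e := by
    rw [← conj_pow]
    congr 1
    group
  rwa [h7] at h6

/-- Transfer of the congruence theorem. -/
theorem hasLiB (hdiv : Division a b c) (M : Subgroup (fixI a b c)) (hM : M.Normal)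
    (hi : Bg M) {e : ℕ} (he : 0 < e) {b' : kˣ}
    (hexp : ∀ (c' : kˣ) (u m : Oct a b c), Trip a b' c' gi u m →
      ∀ g : fixI a b c, g.1.1 u = u → g ^ e ∈ M) {V : Set k} (hV : ∀ x ∈ V, ∀ w : HeightOneSpectrum (𝓞 k), Ram a b' w →
      w.valuation k x < w.valuation k (4 * (e : k) ^ 4)) :
    HasLi (M.map (fixI a b c).subtype) V b' := by
  intro c' u m T g hz hu hg
  have h2 : (2 : k) ≠ 0 := two_ne_zero
  obtain ⟨Φ, h1, h3, -, h4⟩ := Oct.exists_emb T
  have hΦi : Φ gi = gi := by rw [h1, emb_gi]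
  obtain ⟨t, ht, hre⟩ := exists_long h2 T Φ h1 h3 h4 hz hu
  rw [hre] at hg
  have hab := (Oct.aniso_of_trip hdiv T).1
  have hN' : (M.comap ((conjI Φ h3 hΦi).comp (longI a b' c'))).Normal := hM.comap _
  have := sl_near hab he (M.comap ((conjI Φ h3 hΦi).comp (longI a b' c'))) hN'
    ((hi.comap _).index hab)
    (fun x => by
      rw [Subgroup.mem_comap, map_pow]
      refine hexp c' u m T _ ?_
      have ej : Φ gj = u := by rw [h1, emb_gj]
      change Φ ((long a b' c' x).1 (Φ.symm u)) = u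
      rw [← ej, Φ.symm_apply_apply]
      congr 1
      apply Oct.ext
      · rfl
      · change ((x : (Qt a b')ˣ) : Qt a b') * 0 = 0
        exact mul_zero _) t (fun w hw => hV _ hg w hw)
  rw [Subgroup.mem_comap] at this
  exact ⟨_, this, ht.symm⟩

/-- The long group lies in the normal subgroup, if `c` is close to one at the ramified places. -/
theorem long_memIB (hdiv : Division a b c) (M : Subgroup (fixI a b c)) (hM : M.Normal)
    (hi : Bg M)
    (hc : ∀ w : HeightOneSpectrum (𝓞 k), Ram a b w → plAbv (Sum.inl w) ((c : k) - 1) <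
      plAbv (Sum.inl w) 4 / (1 + plAbv (Sum.inl w) (((b : k) - 1) ^ 2 / (4 * b))))
    (t : SL1 a b) : longI a b c t ∈ M := by
  obtain ⟨N, hNd⟩ : ∃ N : Subgroup (AutC a b c), N = M.map (fixI a b c).subtype := ⟨_, rfl⟩
  have hback : ∀ t : SL1 a b, long a b c t ∈ N → longI a b c t ∈ M := by
    intro t ht
    rw [hNd] at ht
    exact mem_of_map ht
  have h2 : (2 : k) ≠ 0 := two_ne_zero
  have h4 : (4 : k) ≠ 0 := by norm_num
  have hb0 : (b : k) ≠ 0 := b.ne_zero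
  have hc0 : (c : k) ≠ 0 := c.ne_zero
  -- the vector `j1`
  obtain ⟨α, hα⟩ : ∃ α : k, α = (b + 1) / 2 := ⟨_, rfl⟩
  obtain ⟨β, hβ⟩ : ∃ β : k, β = (b - 1) / 2 := ⟨_, rfl⟩
  obtain ⟨j1, hj1⟩ : ∃ j1 : Oct a b c, j1 = ⟨⟨0, 0, α, 0⟩, ⟨0, 0, -β, 0⟩⟩ := ⟨_, rfl⟩
  have hj10 : j1 ≠ 0 := by
    intro h
    have e1 : α = 0 := by
      have := congrArg (fun x : Oct a b c => x.fst.imJ) h
      simpa [hj1] using this
    have e2 : β = 0 := by
      have := congrArg (fun x : Oct a b c => x.snd.imJ) h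
      simpa [hj1] using this
    have : (1 : k) = α - β := by rw [hα, hβ]; ring
    rw [e1, e2, sub_zero] at this
    exact one_ne_zero this
  have hnj : norm j1 = -((α ^ 2 - c * β ^ 2) * b) := by
    rw [norm_coord, hj1]; ring
  have hnj0 : norm j1 ≠ 0 := fun h => hj10 (hdiv _ h)
  obtain ⟨c1, hc1⟩ : ∃ c1 : kˣ, (c1 : k) = (α ^ 2 - c * β ^ 2) * b :=
    ⟨Units.mk0 ((α ^ 2 - c * β ^ 2) * b) (fun h => hnj0 (by rw [hnj, h, neg_zero])), rfl⟩
  have hg := Oct.trip_std (a := a) (b := b) (c := c)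
  have hgi0 : norm (gi : Oct a b c) ≠ 0 := by
    rw [norm_of_sq hg.si hg.ii]; exact neg_ne_zero.mpr a.ne_zero
  have Pj : Pair (gi : Oct a b c) j1 := by
    refine ⟨hg.si, ?_, hgi0, hnj0, ?_⟩
    · apply Oct.ext <;> ext <;> simp [hj1]
    · rw [dot_coord]; simp [gi, hj1]
  have Pl1 : Perp gi j1 (gl : Oct a b c) := by
    refine ⟨?_, ?_, ?_, ?_⟩ <;> rw [dot_coord] <;> simp [gi, gl, hj1]
  -- the local conditions
  have hloc : ∀ w : HeightOneSpectrum (𝓞 k), Ram a b w → ¬ Ram a c w ∧ ¬ Ram a c1 w := by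
    intro w hw
    have hx := hc w hw
    obtain ⟨M, hM⟩ : ∃ M, M = plAbv (Sum.inl w) (((b : k) - 1) ^ 2 / (4 * b)) := ⟨_, rfl⟩
    have hM0 : 0 ≤ M := by rw [hM]; exact (plAbv _).nonneg _
    rw [← hM, lt_div_iff₀ (by linarith)] at hx
    have hn0 := (plAbv (Sum.inl w)).nonneg ((c : k) - 1)
    have x1 : plAbv (Sum.inl w) ((c : k) - 1) < plAbv (Sum.inl w) 4 := by nlinarith
    have x2 : plAbv (Sum.inl w) (((c : k) - 1) * (((b : k) - 1) ^ 2 / (4 * b))) <
        plAbv (Sum.inl w) 4 := by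
      rw [map_mul, ← hM]; nlinarith
    rw [plAbv_lt] at x1 x2
    constructor
    · intro h
      refine h (Subgroup.mem_sup_right (mem_LS.mpr ⟨1, ?_⟩))
      simpa using x1
    · intro h
      refine h (Subgroup.mem_sup_right (mem_LS.mpr ⟨b, ?_⟩))
      have e : (c1 : k) / (b : k) ^ 2 - 1 = -(((c : k) - 1) * (((b : k) - 1) ^ 2 / (4 * b))) := by
        rw [hc1, hα, hβ]
        field_simp
        ring
      rw [e, Valuation.map_neg]
      exact x2
  -- the set of places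
  obtain ⟨S, hSd⟩ : ∃ S : Set (Pl k), S = Sum.inl '' {w | Ram a c w} ∪ Sum.inl '' {w | Ram a c1 w} ∪
    Set.range Sum.inr := ⟨_, rfl⟩
  have hS : S.Finite := by
    rw [hSd]
    exact (((ram_finite a c).image _).union ((ram_finite a c1).image _)).union (Set.finite_range _)
  have hSr : ∀ φ, (Sum.inr φ : Pl k) ∈ S := fun φ => by rw [hSd]; exact Or.inr ⟨φ, rfl⟩
  have hne : S.Nonempty := by
    obtain ⟨φ⟩ := exists_real hdiv
    exact ⟨_, hSr φ⟩
  have hS1 : ∀ w, Ram a c w → (Sum.inl w : Pl k) ∈ S := fun w hw => by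
    rw [hSd]; exact Or.inl (Or.inl ⟨w, hw, rfl⟩)
  have hS2 : ∀ w, Ram a c1 w → (Sum.inl w : Pl k) ∈ S := fun w hw => by
    rw [hSd]; exact Or.inl (Or.inr ⟨w, hw, rfl⟩)
  have hdisj : ∀ w, Ram a b w → (Sum.inl w : Pl k) ∉ S := by
    intro w hw h
    rw [hSd] at h
    rcases h with (⟨w', h1, h3⟩ | ⟨w', h1, h3⟩) | ⟨φ, h3⟩
    · rw [Sum.inl_injective h3] at h1
      exact (hloc w hw).1 h1
    · rw [Sum.inl_injective h3] at h1
      exact (hloc w hw).2 h1
    · exact Sum.inr_ne_inl h3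
  -- the exponent
  obtain ⟨e₁, he₁, hx₁⟩ := exists_expB hdiv M hi c1
  obtain ⟨e₂, he₂, hx₂⟩ := exists_expB hdiv M hi c
  obtain ⟨e₃, he₃, hx₃⟩ := hi.exp (Oct.aniso_of_trip hdiv hg).1 (longI a b c)
  obtain ⟨e, hed⟩ : ∃ e, e = e₁ * e₂ * e₃ := ⟨_, rfl⟩
  have he : 0 < e := by rw [hed]; positivity
  have hexp₁ : ∀ (c' : kˣ) (u m : Oct a b c), Trip a c1 c' gi u m →
      ∀ g : fixI a b c, g.1.1 u = u → g ^ e ∈ M := fun c' u m T g hg => by
    rw [hed, mul_assoc, pow_mul]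
    exact M.pow_mem (hx₁ c' u m T g hg) _
  have hexp₂ : ∀ (c' : kˣ) (u m : Oct a b c), Trip a c c' gi u m →
      ∀ g : fixI a b c, g.1.1 u = u → g ^ e ∈ M := fun c' u m T g hg => by
    rw [hed, mul_comm e₁, mul_assoc, pow_mul]
    exact M.pow_mem (hx₂ c' u m T g hg) _
  have hexp : ∀ g : SL1 a b, longI a b c g ^ e ∈ M := fun g => by
    rw [hed, mul_comm, pow_mul]
    exact M.pow_mem (hx₃ g) _
  have he4 : (4 * (e : k) ^ 4) ≠ 0 :=
    mul_ne_zero h4 (pow_ne_zero _ (Nat.cast_ne_zero.mpr he.ne'))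
  -- the near step
  obtain ⟨A, hA, hAN⟩ : ∃ A ∈ @nhds (Qt a b) (@qTop k _ a b (topS S)) 1, ∀ t : SL1 a b,
      ((t : (Qt a b)ˣ) : Qt a b) ∈ A → long a b c t ∈ N := by
    let _ := topS S
    have i1 : IsTopologicalRing k := topS_ring
    have i2 : ContinuousInv₀ k := topS_inv
    have i3 : T1Space k := t1_topS hS hne
    have hV0 : interior {x : k | ∀ w : HeightOneSpectrum (𝓞 k), (Sum.inl w : Pl k) ∈ S →
      w.valuation k x < w.valuation k (4 * (e : k) ^ 4)} ∈ 𝓝 0 :=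
      interior_mem_nhds.mpr (small_mem hS he4)
    obtain ⟨p, q, hpq1, hpq2, hpq3⟩ := exists_pq hS hne a hV0
    refine near_stepI h2 (nt hS hSr) hdiv N Pj (by rw [hnj, hc1]) Pl1 isOpen_interior
      (mem_of_mem_nhds hV0) ?_ ?_ hpq1 hpq2 hpq3
    · rw [hNd]
      exact hasLiB hdiv M hM hi he hexp₁ fun x hx w hw => interior_subset hx w (hS2 w hw)
    · rw [hNd]
      exact hasLiB hdiv M hM hi he hexp₂ fun x hx w hw => interior_subset hx w (hS1 w hw)
  have hA' : {x : Qt a b | ((t : (Qt a b)ˣ) : Qt a b) * star x ∈ A} ∈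
      @nhds (Qt a b) (@qTop k _ a b (topS S)) ((t : (Qt a b)ˣ) : Qt a b) := by
    let _ := topS S
    have i1 : IsTopologicalRing k := topS_ring
    have h1 : Continuous fun x : Qt a b => ((t : (Qt a b)ˣ) : Qt a b) * star x := by fun_prop
    refine h1.continuousAt ?_
    have e1 : ((t : (Qt a b)ˣ) : Qt a b) * star ((t : (Qt a b)ˣ) : Qt a b) = 1 := by
      have hx : nrd ((t : (Qt a b)ˣ) : Qt a b) = 1 := t.2
      ext <;> simp [nrd] at hx ⊢
      · linear_combination hx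
      all_goals ring
    rw [e1]
    exact hA
  obtain ⟨ε, hε, hεA⟩ := exists_eps hS hA'
  -- weak approximation
  obtain ⟨T, hT⟩ : ∃ T : Set (Pl k), T = Sum.inl '' {w | Ram a b w} := ⟨_, rfl⟩
  have hTf : T.Finite := by rw [hT]; exact (ram_finite a b).image _
  have he2 : (2 * (e : k) ^ 4) ≠ 0 :=
    mul_ne_zero h2 (pow_ne_zero _ (Nat.cast_ne_zero.mpr he.ne'))
  obtain ⟨ε', hε', h5⟩ := exists_min_pos (hS.union hTf)
    (fun p => min ε (plAbv p (2 * (e : k) ^ 4))) (fun p => lt_min hε ((plAbv p).pos he2))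
  have hab : Aniso a b := (Oct.aniso_of_trip hdiv hg).1
  classical
  obtain ⟨t', ht'⟩ := wa_SL1 (hS.union hTf) hab (fun p => if p ∈ S then t else 1) hε'
  have hN' : (M.comap (longI a b c)).Normal := hM.comap _
  have f1 : longI a b c t' ∈ M := by
    have := sl_near hab he (M.comap (longI a b c)) hN' ((hi.comap _).index hab)
      (fun x => by rw [Subgroup.mem_comap, map_pow]; exact hexp _) t' (fun w hw => ?_)
    · exact this
    · have hp : (Sum.inl w : Pl k) ∈ S ∪ T := Or.inr (by rw [hT]; exact ⟨w, hw, rfl⟩)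
      have g1 := (ht' _ hp).1
      simp only [if_neg (hdisj w hw)] at g1
      have g2 := (h5 _ hp).trans (min_le_right _ _)
      have g3 : plAbv (Sum.inl w) ((((t' : (Qt a b)ˣ) : Qt a b) - (((1 : SL1 a b) : (Qt a b)ˣ) :
        Qt a b)).re) < plAbv (Sum.inl w) (2 * (e : k) ^ 4) := lt_of_lt_of_le g1 g2
      rw [plAbv_lt] at g3
      have e1 : (2 : k) - 2 * ((t' : (Qt a b)ˣ) : Qt a b).re =
          -(2 * ((((t' : (Qt a b)ˣ) : Qt a b) - (((1 : SL1 a b) : (Qt a b)ˣ) : Qt a b)).re)) := by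
        simp
        ring
      have e2 : (4 : k) * (e : k) ^ 4 = 2 * (2 * (e : k) ^ 4) := by ring
      rw [e1, e2, Valuation.map_neg, map_mul, map_mul]
      exact mul_lt_mul_of_pos_left g3 (zero_lt_iff.mpr ((Valuation.ne_zero_iff _).mpr h2))
  have f2 : longI a b c (t * t'⁻¹) ∈ M := by
    apply hback
    apply hAN
    have e1 : (((t'⁻¹ : SL1 a b) : (Qt a b)ˣ) : Qt a b) = star ((t' : (Qt a b)ˣ) : Qt a b) := by
      have hx : nrd ((t' : (Qt a b)ˣ) : Qt a b) = 1 := t'.2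
      have e3 : star ((t' : (Qt a b)ˣ) : Qt a b) * ((t' : (Qt a b)ˣ) : Qt a b) = 1 := by
        ext <;> simp [nrd] at hx ⊢
        · linear_combination hx
        all_goals ring
      have e4 : (((t'⁻¹ : SL1 a b) : (Qt a b)ˣ) : Qt a b) = (((t' : (Qt a b)ˣ)⁻¹ : (Qt a b)ˣ) : Qt a b) :=
        rfl
      rw [e4]
      exact Units.inv_eq_of_mul_eq_one_left e3
    have e2 : (((t * t'⁻¹ : SL1 a b) : (Qt a b)ˣ) : Qt a b) =
        ((t : (Qt a b)ˣ) : Qt a b) * star ((t' : (Qt a b)ˣ) : Qt a b) := by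
      rw [← e1]; rfl
    rw [e2]
    refine hεA _ fun p hp => ?_
    have g1 := ht' p (Or.inl hp)
    simp only [if_pos hp] at g1
    have g2 := (h5 p (Or.inl hp)).trans (min_le_left _ _)
    exact ⟨lt_of_lt_of_le g1.1 g2, lt_of_lt_of_le g1.2.1 g2, lt_of_lt_of_le g1.2.2.1 g2,
      lt_of_lt_of_le g1.2.2.2 g2⟩
  have f3 : longI a b c t = longI a b c (t * t'⁻¹) * longI a b c t' := by
    rw [← map_mul, inv_mul_cancel_right]
  rw [f3]
  exact M.mul_mem f2 f1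

/-- An automorphism fixing a basic pair lies in the normal subgroup. -/
theorem fix_memIB (hdiv : Division a b c) (M : Subgroup (fixI a b c)) (hM : M.Normal)
    (hi : Bg M) {j : Oct a b c} (hj1 : star j = -j) (hj0 : j ≠ 0) (hij : dot gi j = 0)
    {g : fixI a b c} (hgj : g.1.1 j = j) : g ∈ M := by
  have h2 : (2 : k) ≠ 0 := two_ne_zero
  obtain ⟨i, hid⟩ : ∃ i : Oct a b c, i = gi := ⟨_, rfl⟩
  have hg := Oct.trip_std (a := a) (b := b) (c := c)
  have hi1 : star i = -i := by rw [hid]; exact hg.si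
  have hni : norm i = -(a : k) := by rw [hid]; exact norm_of_sq hg.si hg.ii
  have hi0 : i ≠ 0 := by
    intro h
    rw [h, norm_coord] at hni
    have := a.ne_zero
    apply this
    simp at hni
  have hgi : g.1.1 i = i := by rw [hid]; exact g.2
  rw [← hid] at hij
  have P : Pair i j := ⟨hi1, hj1, fun h => hi0 (hdiv _ h), fun h => hj0 (hdiv _ h), hij⟩
  obtain ⟨l0, hl00, hl0⟩ := Oct.exists_perp (![1, i, j, i * j, 0, 0, 0] : Fin 7 → Oct a b c)
  have Pl0 : Perp i j l0 := ⟨hl0 0, hl0 1, hl0 2, hl0 3⟩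
  have hn0 : norm l0 ≠ 0 := fun h => hl00 (hdiv _ h)
  have ha' : (a : k) = -norm i := by rw [hni, neg_neg]
  obtain ⟨b', hb'⟩ : ∃ b' : kˣ, (b' : k) = -norm j := ⟨Units.mk0 _ (neg_ne_zero.mpr P.nu), rfl⟩
  obtain ⟨c0, hc0⟩ : ∃ c0 : kˣ, (c0 : k) = -norm l0 := ⟨Units.mk0 _ (neg_ne_zero.mpr hn0), rfl⟩
  have T0 : Trip a b' c0 i j l0 := trip_of P Pl0 ha' hb' hc0
  have hc00 : (c0 : k) ≠ 0 := c0.ne_zero
  -- the choice of the norm
  obtain ⟨Mf, hMf⟩ : ∃ Mf : Pl k → ℝ, Mf = fun p =>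
    plAbv p 4 / (1 + plAbv p (((b' : k) - 1) ^ 2 / (4 * b'))) := ⟨_, rfl⟩
  have hM0 : ∀ p, 0 < Mf p := fun p => by
    rw [hMf]
    refine div_pos ((plAbv p).pos (by norm_num)) ?_
    have := (plAbv p).nonneg (((b' : k) - 1) ^ 2 / (4 * b'))
    linarith
  have hfin : (Sum.inl '' {w | Ram a b' w} ∪ Set.range Sum.inr : Set (Pl k)).Finite :=
    ((ram_finite a b').image _).union (Set.finite_range _)
  obtain ⟨x, hx⟩ := approx _ hfin (fun p => match p with
    | .inl _ => (c0 : k)⁻¹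
    | .inr _ => 1) (fun p => match p with
    | .inl w => Mf (.inl w) / plAbv (.inl w) (c0 : k)
    | .inr _ => 1 / 2) (by
      rintro (w | φ)
      · exact div_pos (hM0 _) ((plAbv _).pos hc00)
      · norm_num)
  have hpos : ∀ φ : k →+* ℝ, 0 < φ x := by
    intro φ
    have h1 := hx (Sum.inr φ) (Or.inr ⟨φ, rfl⟩)
    simp only [plAbv_inr, map_sub, map_one] at h1
    rw [abs_lt] at h1
    linarith [h1.1]
  obtain ⟨φ0⟩ := exists_real hdiv
  have hx0 : x ≠ 0 := by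
    rintro rfl
    have := hpos φ0
    rw [map_zero] at this
    exact lt_irrefl _ this
  obtain ⟨q, hq⟩ := exists_nrd (a := a) (b := b') (Units.mk0 x hx0) (fun φ _ _ => hpos φ)
  rw [Units.val_mk0] at hq
  obtain ⟨hl1, hl2⟩ := exists_exact h2 T0 q
  obtain ⟨l, hl⟩ : ∃ l, l = qemb i j q * l0 := ⟨_, rfl⟩
  rw [← hl] at hl1 hl2
  obtain ⟨c', hc'⟩ : ∃ c' : kˣ, (c' : k) = c0 * x := ⟨c0 * Units.mk0 x hx0, by simp⟩
  have T : Trip a b' c' i j l := trip_of P hl2 ha' hb' (by rw [hl1, hq, hc', hc0]; ring)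
  obtain ⟨Φ, h1, h3, -, h4⟩ := Oct.exists_emb T
  have hΦi : Φ gi = gi := by rw [h1, emb_gi, hid]
  obtain ⟨t, ht, -⟩ := exists_long h2 T Φ h1 h3 h4 hgi hgj
  have hN' : (M.comap (conjI Φ h3 hΦi)).Normal := hM.comap _
  have hmem := long_memIB (Oct.aniso_of_trip hdiv T).2.2.2 (M.comap (conjI Φ h3 hΦi)) hN'
    (hi.comap _) (fun w hw => ?_) t
  · have e1 : g = conjI Φ h3 hΦi (longI a b' c' t) := Subtype.ext ht
    rw [e1]
    exact hmem
  · have h5 := hx (Sum.inl w) (Or.inl ⟨w, hw, rfl⟩)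
    simp only at h5
    rw [lt_div_iff₀ ((plAbv _).pos hc00), ← map_mul] at h5
    have e1 : (c' : k) - 1 = (x - (c0 : k)⁻¹) * c0 := by
      rw [hc']
      field_simp
    rw [e1]
    rw [hMf] at h5
    exact h5

/-- **The stabiliser of `i`.** -/
theorem fixI_topB (hdiv : Division a b c) (M : Subgroup (fixI a b c)) (hM : M.Normal)
    (hi : Bg M) : M = ⊤ := by
  rw [eq_top_iff]
  intro g _
  have hstd := Oct.trip_std (a := a) (b := b) (c := c)
  have hi0 : (gi : Oct a b c) ≠ 0 := by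
    intro h
    have := congrArg (fun x : Oct a b c => x.fst.imI) h
    simp [gi] at this
  have hj0 : (gj : Oct a b c) ≠ 0 := by
    intro h
    have := congrArg (fun x : Oct a b c => x.fst.imJ) h
    simp [gj] at this
  have hg1 : g.1.1 gi = gi := g.2
  obtain ⟨ψ, hψN, hψ⟩ : ∃ ψ ∈ M, ψ.1.1 gj = g.1.1 gj := by
    obtain ⟨z, hz0, hz⟩ := Oct.exists_perp
      (![1, gi, g.1.1 gj - gj, gi * (g.1.1 gj - gj), 0, 0, 0] : Fin 7 → Oct a b c)
    have hz1 : dot z 1 = 0 := hz 0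
    have hz2 : dot z gi = 0 := hz 1
    have hz3 : dot z (g.1.1 gj - gj) = 0 := hz 2
    have hz4 : dot z (gi * (g.1.1 gj - gj)) = 0 := hz 3
    have hz' := Oct.star_iff_dot.2 hz1
    have hzi : dot gi z = 0 := by rw [dot_comm, hz2]
    obtain ⟨ψ, h1, h2, h3⟩ := Oct.exists_move hdiv hstd.si hi0 hz' hz0 hzi hstd.sj
      (by rw [← Oct.aut_star, hstd.sj, map_neg]) (Oct.aut_norm g.1 gj)
      (by
        rw [dot_sub_right, hstd.ij, sub_zero]
        nth_rewrite 1 [← hg1]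
        rw [Oct.aut_dot, hstd.ij]) hz3
      (by rw [Oct.dot_mul_left, hstd.si, neg_mul, Oct.dot_neg_right, hz4, neg_zero])
    exact ⟨⟨ψ, h1⟩, fix_memIB hdiv M hM hi hz' hz0 hzi h2, h3⟩
  have h2 : (ψ⁻¹ * g).1.1 gj = gj := by
    change ψ.1⁻¹.1 (g.1.1 gj) = gj
    rw [← hψ]
    change (ψ.1⁻¹ * ψ.1).1 gj = gj
    rw [inv_mul_cancel]
    rfl
  have h3 := fix_memIB hdiv M hM hi hstd.sj hj0 hstd.ij h2
  have h4 := mul_mem hψN h3
  rwa [mul_inv_cancel_left] at h4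

end nf

end Vale.Agent.P011.D4.B.FI
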