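import Vale.Agent.P011.D4X.H637.TorAbs
import Vale.Agent.P011N.D1.Base

/-!
Block D1: the torus trick over an arbitrary base, for big subgroups.
-/

open NumberField IsDedekindDomain Topology

namespace Vale.Agent.P011.D4X.H637

open Vale.Agent.P011.MPQ Vale.Agent.P011.Arith Vale.Agent.P011.D4 Vale.Agent.P011.D4.H24
open Vale.Agent.P011N.D1

variable {L : Type} [Field L] [NumberField L]

/-- The approximation argument of the torus trick. -/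
theorem torus_absB {a b b₁ : Lˣ} (hram : ∀ w, Ram a b w → ¬ Ram a b₁ w)
    (hA : Aniso a b) (hA₁ : Aniso a b₁) {G : Type} [Group G]
    (s : SL1 a b →* G) (s₁ : SL1 a b₁ →* G)
    (N : Subgroup G) (hN : Bg N)
    (m3 : ∀ (t : SL1 a b) (t' : SL1 a b₁) (p q : L),
      ((t : (Qt a b)ˣ) : Qt a b) = ⟨p, q, 0, 0⟩ →
      ((t' : (Qt a b₁)ˣ) : Qt a b₁) = ⟨p, q, 0, 0⟩ →
      s₁ t' ∈ N → s t ∈ N)
    (x : SL1 a b) (hJ : ((x : (Qt a b)ˣ) : Qt a b).imJ = 0)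
    (hK : ((x : (Qt a b)ˣ) : Qt a b).imK = 0) : s x ∈ N := by
  classical
  obtain ⟨e₀, he₀, hp₀⟩ := hN.exp hA s
  obtain ⟨e₁, he₁, hp₁⟩ := hN.exp hA₁ s₁
  obtain ⟨e, hed⟩ : ∃ e, e = e₀ * e₁ := ⟨_, rfl⟩
  have he : 0 < e := by rw [hed]; exact Nat.mul_pos he₀ he₁
  have hpow : ∀ g : SL1 a b, s g ^ e ∈ N := fun g => by
    rw [hed, pow_mul]
    exact N.pow_mem (hp₀ g) _
  have hpow₁ : ∀ g : SL1 a b₁, s₁ g ^ e ∈ N := fun g => by
    rw [hed, mul_comm, pow_mul]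
    exact N.pow_mem (hp₁ g) _
  obtain ⟨A, hA0⟩ : ∃ A : L, A = a := ⟨_, rfl⟩
  have hAne : A ≠ 0 := by
    rw [hA0]
    exact a.ne_zero
  -- membership from closeness
  have m1 : ∀ t : SL1 a b, (∀ w, Ram a b w →
      w.valuation L (2 - 2 * ((t : (Qt a b)ˣ) : Qt a b).re) <
        w.valuation L (4 * (e : L) ^ 4)) → s t ∈ N := by
    intro t ht
    have h1 := (hN.comap s).normal
    have h2 := (hN.comap s).index hA
    exact mpq_mem hA h1 h2 he (fun g => by rw [Subgroup.mem_comap, map_pow]; exact hpow _) t ht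
  have m2 : ∀ t : SL1 a b₁, (∀ w, Ram a b₁ w →
      w.valuation L (2 - 2 * ((t : (Qt a b₁)ˣ) : Qt a b₁).re) <
        w.valuation L (4 * (e : L) ^ 4)) → s₁ t ∈ N := by
    intro t ht
    have h1 := (hN.comap s₁).normal
    have h2 := (hN.comap s₁).index hA₁
    exact mpq_mem hA₁ h1 h2 he (fun g => by rw [Subgroup.mem_comap, map_pow]; exact hpow₁ _) t ht
  obtain ⟨x₀, x₁, hx⟩ : ∃ x₀ x₁ : L,
      ((x : (Qt a b)ˣ) : Qt a b) = ⟨x₀, x₁, 0, 0⟩ :=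
    ⟨_, _, QuaternionAlgebra.ext rfl rfl hJ hK⟩
  have hx1 : x₀ ^ 2 - A * x₁ ^ 2 = 1 := by
    have h : nrd ((x : (Qt a b)ˣ) : Qt a b) = 1 := x.2
    rw [hx] at h
    change x₀ ^ 2 - (a : L) * x₁ ^ 2 - (b : L) * 0 ^ 2 + (a : L) * (b : L) * 0 ^ 2 = 1 at h
    rw [hA0]
    linear_combination h
  by_cases hne : ∃ w, Ram a b w
  swap
  · exact m1 x fun w hw => absurd ⟨w, hw⟩ hne
  obtain ⟨w₀, hw₀⟩ := hne
  obtain ⟨y₀, y₁, hy, hy0, hy1⟩ := exists_root two_ne_zero hAne hx1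
  have hM : (4 * (e : L) ^ 4) ≠ 0 :=
    mul_ne_zero (by norm_num) (pow_ne_zero 4 (by exact_mod_cast he.ne'))
  choose η₁ hη₁ hz₁ using fun p : Pl L => near_tor (plAbv p) A y₀ y₁ _ hM hy
  choose η₂ hη₂ hz₂ using fun p : Pl L => near_tor (plAbv p) A 1 0 _ hM (by simp)
  let T : Set (Pl L) := Sum.inl '' ({w | Ram a b w} ∪ {w | Ram a b₁ w})
  have hT : T.Finite := ((ram_finite _ _).union (ram_finite _ _)).image _
  let P : Pl L → Prop := fun p => ∃ w, p = Sum.inl w ∧ Ram a b w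
  let δ : Pl L → ℝ := fun p => if P p then η₁ p else η₂ p
  have hδ : ∀ p, 0 < δ p := fun p => by
    by_cases hp : P p
    · simp only [δ, if_pos hp]
      exact hη₁ p
    · simp only [δ, if_neg hp]
      exact hη₂ p
  obtain ⟨z₀, hz₀⟩ := approx T hT (fun p => if P p then y₀ else 1) δ hδ
  obtain ⟨z₁, hz₁'⟩ := approx T hT (fun p => if P p then y₁ else 0) δ hδ
  have k1 : ∀ w, Ram a b w → w.valuation L (4 * A * (y₁ * z₀ - y₀ * z₁) ^ 2) <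
      w.valuation L (4 * (e : L) ^ 4 * (y₀ ^ 2 - A * y₁ ^ 2) * (z₀ ^ 2 - A * z₁ ^ 2)) := by
    intro w hw
    have hP : P (Sum.inl w) := ⟨w, rfl, hw⟩
    have h1 := hz₀ (Sum.inl w) ⟨w, Or.inl hw, rfl⟩
    have h2 := hz₁' (Sum.inl w) ⟨w, Or.inl hw, rfl⟩
    simp only [δ, if_pos hP] at h1 h2
    exact (plAbv_lt w _ _).mp (hz₁ _ _ _ h1 h2)
  have k2 : ∀ w, Ram a b₁ w → w.valuation L (4 * A * z₁ ^ 2) <
      w.valuation L (4 * (e : L) ^ 4 * (z₀ ^ 2 - A * z₁ ^ 2)) := by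
    intro w hw
    have hP : ¬ P (Sum.inl w) := by
      rintro ⟨w', h, hw'⟩
      rw [Sum.inl.injEq] at h
      subst h
      exact hram w hw' hw
    have h1 := hz₀ (Sum.inl w) ⟨w, Or.inr hw, rfl⟩
    have h2 := hz₁' (Sum.inl w) ⟨w, Or.inr hw, rfl⟩
    simp only [δ, if_neg hP] at h1 h2
    have h3 := (plAbv_lt w _ _).mp (hz₂ _ _ _ h1 h2)
    have e1 : 4 * A * (0 * z₀ - 1 * z₁) ^ 2 = 4 * A * z₁ ^ 2 := by ring
    have e2 : 4 * (e : L) ^ 4 * (1 ^ 2 - A * 0 ^ 2) * (z₀ ^ 2 - A * z₁ ^ 2) =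
        4 * (e : L) ^ 4 * (z₀ ^ 2 - A * z₁ ^ 2) := by ring
    rwa [e1, e2] at h3
  have hz : z₀ ^ 2 - A * z₁ ^ 2 ≠ 0 := by
    intro h
    have h1 := k1 w₀ hw₀
    rw [h, mul_zero, map_zero] at h1
    exact not_lt_zero h1
  obtain ⟨n, hn⟩ : ∃ n, n = z₀ ^ 2 - A * z₁ ^ 2 := ⟨_, rfl⟩
  obtain ⟨m, hm⟩ : ∃ m, m = y₀ ^ 2 - A * y₁ ^ 2 := ⟨_, rfl⟩
  have hn0 : n ≠ 0 := hn ▸ hz
  have hm0 : m ≠ 0 := hm ▸ hy
  obtain ⟨r₀, hr₀⟩ : ∃ r₀, r₀ = (z₀ ^ 2 + A * z₁ ^ 2) / n := ⟨_, rfl⟩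
  obtain ⟨r₁, hr₁⟩ : ∃ r₁, r₁ = 2 * z₀ * z₁ / n := ⟨_, rfl⟩
  have hr : r₀ ^ 2 - A * r₁ ^ 2 = 1 := by
    rw [hr₀, hr₁]
    field_simp
    rw [hn]
    ring
  have hup : (a : L) = A := hA0.symm
  have hq : nrd (⟨r₀, r₁, 0, 0⟩ : Qt a b) = 1 := by
    simp only [nrd]
    rw [hup]
    linear_combination hr
  have hq₁ : nrd (⟨r₀, r₁, 0, 0⟩ : Qt a b₁) = 1 := by
    simp only [nrd]
    rw [hup]
    linear_combination hr
  have e2 : 2 - 2 * r₀ = -(4 * A * z₁ ^ 2) / n := by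
    rw [hr₀]
    field_simp
    rw [hn]
    ring
  have e1 : 2 - 2 * (x₀ * r₀ - A * (x₁ * r₁)) = -(4 * A * (y₁ * z₀ - y₀ * z₁) ^ 2) / (m * n) := by
    have h1 : x₀ = (y₀ ^ 2 + A * y₁ ^ 2) / m := by
      rw [eq_div_iff hm0, hm, hy0]
    have h2 : x₁ = 2 * y₀ * y₁ / m := by
      rw [eq_div_iff hm0, hm, hy1]
    rw [hr₀, hr₁, h1, h2]
    field_simp
    rw [hn, hm]
    ring
  -- the second factor
  have c2 : s (mkSL _ hq) ∈ N := by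
    refine m3 (mkSL _ hq) (mkSL _ hq₁) r₀ r₁ rfl rfl (m2 _ fun w hw => ?_)
    rw [coe_mkSL]
    change w.valuation L (2 - 2 * r₀) < _
    rw [e2, map_div₀, Valuation.map_neg, div_lt_iff₀ (zero_lt_iff.mpr
      ((Valuation.ne_zero_iff _).mpr hn0)), ← map_mul, hn]
    exact k2 w hw
  -- the first factor
  have c1 : s (x * (mkSL _ hq)⁻¹) ∈ N := by
    refine m1 _ fun w hw => ?_
    have e3 : (((x * (mkSL _ hq)⁻¹ : SL1 a b) : (Qt a b)ˣ) :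
        Qt a b).re = x₀ * r₀ - A * (x₁ * r₁) := by
      change (((x : (Qt a b)ˣ) : Qt a b) *
        star (⟨r₀, r₁, 0, 0⟩ : Qt a b)).re = _
      rw [hx, QuaternionAlgebra.re_mul]
      simp only [QuaternionAlgebra.re_star, QuaternionAlgebra.imI_star, QuaternionAlgebra.imJ_star,
        QuaternionAlgebra.imK_star]
      rw [hup]
      ring
    rw [e3, e1, map_div₀, Valuation.map_neg, div_lt_iff₀ (zero_lt_iff.mpr
      ((Valuation.ne_zero_iff _).mpr (mul_ne_zero hm0 hn0))), ← map_mul, ← mul_assoc, hn, hm]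
    exact k1 w hw
  have := N.mul_mem c1 c2
  rwa [← map_mul, inv_mul_cancel_right] at this

end Vale.Agent.P011.D4X.H637
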