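import Vale.Agent.P011N.D1.D4W.H7.Fin
import Vale.Agent.P011N.D1.D4W.H7.ShortAll
import Vale.Agent.P011N.D1.D4W.H7.Swap
import Vale.Agent.P011N.D1.D4W.H619.StepT
import Vale.Agent.P011N.E1.Defs

/-!
Block D1: trialitarian groups of noncyclic cubic extensions have no proper big subgroup.
-/

namespace Vale.Agent.P011N.D1

open Vale.Agent.P011 Vale.Agent.P011.D4W Vale.Agent.P011.D4W.H7

/-- The groups of linear maps. -/
theorem tib (hQ : MFQ) : E1.TIB := by
  intro k L _ _ _ _ _ E _ _ _ _ _ ρ σ ι α a b c q H hdef N hN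
  have h2 : NeZero (2 : E) := ⟨two_ne_zero⟩
  have hS : ShortAllB k L := shortAllB k L
  have hT : LeAllB k L := le_of_swapB (H619.leSwapB hS)
  refine eq_top_iff.2 fun x _ => ?_
  obtain ⟨h3, h4⟩ := D4Y.mem_RsIB.1 (gt_topIB H hdef hS
    (open_top_ofB hS H fun h _ hz hp => hT E ρ σ ι α a b c q H hdef h hz hp) x.2)
  exact D4X.mem_fresB.1 h4 N ⟨hQ, hN⟩

end Vale.Agent.P011N.D1
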