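import Vale.Agent.P011N.D1.FinT
import Vale.Agent.P011N.D1.FinI

/-!
Block D1: trialitarian groups have no proper big subgroup.
-/

namespace Vale.Agent.P011N.D1

theorem linI_bigTop (hQ : MFQ) : LinI BigTop :=
  fun k L E _ _ _ _ _ _ _ _ _ _ ρ σ ι α a b c q H hdef => tib hQ k L E ρ σ ι α a b c q H hdef

/-- **Trialitarian groups of noncyclic cubic extensions** have no proper big subgroup. -/
theorem clD6_bigTop (hQ : MFQ) : ClD6 BigTop := clD6_of isoInv_bigTop (linI_bigTop hQ)

/-- **Block D1.** -/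
theorem blockD1 (hQ : MFQ) : ClD3 BigTop ∧ ClD6 BigTop := ⟨clD3_bigTop hQ, clD6_bigTop hQ⟩

end Vale.Agent.P011N.D1
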