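import Vale.Agent.P011N.D1.Brg
import Vale.Agent.P011N.D1.D4Z.H862.Top

/-!
Block D1: trialitarian groups of cyclic cubic extensions have no proper big subgroup.
-/

namespace Vale.Agent.P011N.D1

open Vale.Agent.P011

/-- The groups of linear maps. -/
theorem linT_bigTop (hQ : MFQ) : LinT BigTop := by
  intro k L E _ _ _ _ _ _ _ _ _ _ ρ σ ρL α a b c q H hX N hN
  have h2 : NeZero (2 : E) := ⟨two_ne_zero⟩
  refine eq_top_iff.2 fun x _ => ?_
  obtain ⟨h3, h4⟩ := D4X.mem_RsB.1 (D4Z.gt_topB H hX x.2)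
  exact D4X.mem_fresB.1 h4 N ⟨hQ, hN⟩

/-- **Trialitarian groups of cyclic cubic extensions** have no proper big subgroup. -/
theorem clD3_bigTop (hQ : MFQ) : ClD3 BigTop := clD3_of isoInv_bigTop (linT_bigTop hQ)

end Vale.Agent.P011N.D1
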